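import Vale.Agent.P101.Stage4.Pairs
import Vale.Agent.P101.Polar

/-! Stage 4: many commuting copies of a full order zero family give a family whose support differs
from 1 by something dominated by the distinguished entry. -/

noncomputable section

open Finset

namespace Vale.Agent.P101.Stage4

open CombineN

/-- The Rordam-Winter relations, for any matrix size, with positivity witnessed by squares. -/
def ComparisonN (n : ℕ) (z : Fin n) (D : Type*) [CStarAlgebra D] : Prop :=
  ∃ (G : Fin n → Fin n → D) (v : D), IsOrderZero G ∧ (∀ i j, star (G i j) = G j i) ∧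
    (∀ i, ∃ r, star r * r = G i i) ∧ star v * v = 1 - supp G ∧ G z z * v = v

/-- From a lower bound on the ranges and an exact left inverse to the relations. -/
theorem finish {D : Type*} [CStarAlgebra D] {n : ℕ} {G : Fin n → Fin n → D} (hG : IsOrderZero G)
    (hs : ∀ i j, star (G i j) = G j i) (z : Fin n) {T Q Y : D} (hQ : star Q = Q)
    (hY : Y * (G z z * T) = Q) {τ : ℝ} (hτ : 0 < τ)
    (hgT : cfc (ramp (τ / 2) τ) (supp G) * T = T)
    (hψQ : Q * cfc (fun x => Real.sqrt (1 - ramp (τ / 2) τ x)) (supp G)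
      = cfc (fun x => Real.sqrt (1 - ramp (τ / 2) τ x)) (supp G)) :
    ComparisonN n z D := by
  set H := supp G with hH
  have hsa : IsSelfAdjoint H := supp_sa G hs
  set g : ℝ → ℝ := ramp (τ / 2) τ with hg
  set k : ℝ → ℝ := fun x => g x / max x (τ / 2) with hk
  set sg : ℝ → ℝ := fun x => Real.sqrt (g x) / max x (τ / 2) with hsg
  set ψ0 : ℝ → ℝ := fun x => Real.sqrt (1 - g x) with hψ0
  have hm0 : ∀ x, 0 < max x (τ / 2) := fun x => lt_of_lt_of_le (half_pos hτ) (le_max_right _ _)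
  have cg : Continuous g := continuous_ramp _ _
  have ck : Continuous k := cg.div (by fun_prop) fun x => (hm0 x).ne'
  have csg : Continuous sg :=
    (Real.continuous_sqrt.comp cg).div (by fun_prop) fun x => (hm0 x).ne'
  have cψ : Continuous ψ0 := Real.continuous_sqrt.comp (continuous_const.sub cg)
  have hxk : ∀ x, x * k x = g x := fun x => by
    rcases eq_or_ne (g x) 0 with h0 | h0
    · simp [hk, h0]
    · have hx : τ / 2 < x := lt_of_ramp_ne_zero (by linarith) h0
      have : x ≠ 0 := by linarith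
      simp only [hk, max_eq_left hx.le]
      field_simp
  have hsk : ∀ x, sg x * x * sg x = k x := fun x => by
    rcases eq_or_ne (g x) 0 with h0 | h0
    · simp [hk, hsg, h0]
    · have hx : τ / 2 < x := lt_of_ramp_ne_zero (by linarith) h0
      have : x ≠ 0 := by linarith
      simp only [hk, hsg, max_eq_left hx.le]
      field_simp
      rw [Real.sq_sqrt (ramp_nonneg _ _ x)]
  have hHc : ∀ (f : ℝ → ℝ) i j, Commute (cfc f H) (G i j) := fun f i j =>
    Commute.cfc_real (hG.commute_supp i j) f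
  have eHk : H * cfc k H = cfc g H := by
    rw [cfc_congr (f := g) (g := fun x => x * k x) (fun x _ => (hxk x).symm),
      cfc_mul (fun x => x) k H continuousOn_id ck.continuousOn, cfc_id' ℝ H]
  have hψQ' : cfc ψ0 H * Q = cfc ψ0 H := by
    have := congrArg star hψQ
    rwa [star_mul, hQ, (cfc_predicate ψ0 H : IsSelfAdjoint _).star_eq] at this
  obtain ⟨v, hv, hfix⟩ := exists_polar (r := G z z * T) (E := cfc ψ0 H) (Y := cfc ψ0 H * Y)
    (cfc_predicate ψ0 H) (by rw [mul_assoc, hY, hψQ'])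
  have hsupp : supp (fun i j => G i j * cfc k H) = cfc g H := by
    rw [supp, ← Finset.sum_mul, ← supp, ← hH, eHk]
  refine ⟨fun i j => G i j * cfc k H, v, ⟨fun i j k' l => ?_⟩, fun i j => ?_, fun i => ?_, ?_, ?_⟩
  · rw [hsupp, (hHc k k' l).mul_mul_mul_comm, hG.mul_eq, ← hH]
    split
    · rw [← eHk]
      simp only [mul_assoc]
      rw [← mul_assoc (G i l) (cfc k H) (cfc k H), ← (hHc k i l).eq, mul_assoc,
        ← (hHc k i l).eq]
    · rw [zero_mul]
  · rw [star_mul, (cfc_predicate k H : IsSelfAdjoint _).star_eq, hs, (hHc k j i).eq]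
  · refine ⟨G i i * cfc sg H, ?_⟩
    rw [star_mul, (cfc_predicate sg H : IsSelfAdjoint _).star_eq, hs, mul_assoc,
      ← mul_assoc (G i i), hG.mul_eq, if_pos rfl, ← hH, mul_assoc H, ← (hHc sg i i).eq]
    have e : cfc k H = cfc sg H * (H * cfc sg H) := by
      rw [cfc_congr (f := k) (g := fun x => sg x * (x * sg x))
          (fun x _ => by rw [← hsk x, mul_assoc]),
        cfc_mul sg (fun x => x * sg x) H csg.continuousOn
          (continuous_id.mul csg).continuousOn,
        cfc_mul (fun x => x) sg H continuousOn_id csg.continuousOn, cfc_id' ℝ H]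
    show _ = G i i * cfc k H
    rw [← (hHc k i i).eq, e]
    simp only [mul_assoc]
  · rw [hv, hsupp, ← cfc_mul ψ0 ψ0 H cψ.continuousOn cψ.continuousOn, ← cfc_const_one ℝ H,
      ← cfc_sub (fun _ : ℝ => (1 : ℝ)) g H continuousOn_const cg.continuousOn]
    exact cfc_congr fun x _ => Real.mul_self_sqrt (by linarith [ramp_le_one (τ / 2) τ x])
  · refine hfix _ ?_
    rw [mul_assoc, ← mul_assoc (cfc k H), (hHc k z z).eq, ← mul_assoc, ← mul_assoc,
      hG.mul_eq, if_pos rfl, ← hH, (hG.commute_supp z z).eq, mul_assoc (G z z) H, eHk, mul_assoc,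
      hgT]

theorem left_inverse {B D : Type*} [CStarAlgebra B] [CStarAlgebra D] {n m N : ℕ}
    (c : Copies B D (Fin m)) {E : Fin n → Fin n → B} (hE : IsOrderZero E)
    (hs : ∀ i j, star (E i j) = E j i) {z : Fin n} {δ θ K η C c₀ : ℝ} (b : Fin (N + 1) → B)
    (col : Fin m → Fin m → Fin (N + 1)) (hδ : 0 < δ) (hθ : 0 < θ) (hθδ : 2 * θ ≤ δ / 2)
    (hK : ∀ j, ‖E j j‖ ≤ K) (hKk : ‖cfc (fk δ) (supp E) * E z z‖ ≤ K) (hK1 : 1 ≤ K)
    (hη : 0 ≤ η) (hθη : 2 * θ ≤ η * η) (hC : 0 ≤ C) (hc₀ : 0 < c₀)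
    (hsmall : ∀ (P : D) (θ : ℝ), 0 ≤ θ → (∀ a < m, ∀ i j, j ≠ z → ‖fam c E a i j * P‖ ≤ θ) →
      ∀ i j, j ≠ z → ‖fold (fam c E) m i j * P‖ ≤ C * θ)
    (hkill : ∀ p ψ, Continuous ψ → (∀ x, c₀ ≤ x → ψ x = 0) →
      cfc ψ (supp (fold (fam c E) m)) * (tP c E z δ b col p * qQ c E θ) = 0)
    (hηU : ‖cfc (fun t => 1 / max t c₀) (supp (fold (fam c E) m))‖
      * (n * (C * (K ^ (m + 1) * η))) < 1) (p : Pairs m) :
    ∃ W : D, W * (fold (fam c E) m z z * tT c E z δ θ b col)
      = tP c E z δ b col p * qQ c E θ := by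
  set Gm := fold (fam c E) m with hGm
  set H := supp Gm with hH
  have hHsa : IsSelfAdjoint H := (fam_good c E hE hs).supp_fold_sa m
  set Y : ℝ → ℝ := fun t => 1 / max t c₀ with hY
  have cY : Continuous Y := continuous_const.div (by fun_prop) fun t =>
    (lt_of_lt_of_le hc₀ (le_max_right _ _)).ne'
  set tq := tP c E z δ b col p * qQ c E θ with htq
  have eH : cfc Y H * H * tq = tq := by
    have h0 := hkill p (fun x => 1 - Y x * x) (continuous_const.sub (cY.mul continuous_id))
      fun x hx => by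
        simp only [hY, max_eq_left hx]
        rw [one_div_mul_cancel (by linarith), sub_self]
    rw [cfc_sub (fun _ : ℝ => (1 : ℝ)) (fun x => Y x * x) H continuousOn_const
        (cY.mul continuous_id).continuousOn, cfc_const_one ℝ H,
      cfc_mul Y (fun x => x) H cY.continuousOn continuousOn_id, cfc_id' ℝ H, sub_mul, one_mul,
      sub_eq_zero] at h0
    exact h0.symm
  set E1 := c.prod Finset.univ (facP E z δ θ p) with hE1
  have hbound : ∀ i j, j ≠ z → ‖Gm i j * E1‖ ≤ C * (K ^ (m + 1) * η) :=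
    hsmall E1 _ (by positivity) fun a ha i j hj =>
      norm_P c E z hE hs hθ hK hKk hK1 hη hθη p a ha hj
  have hM : ‖cfc Y H * (∑ i ∈ Finset.univ.erase z, Gm i i * E1)‖ < 1 := by
    refine lt_of_le_of_lt ((norm_mul_le _ _).trans ?_) hηU
    refine mul_le_mul_of_nonneg_left ?_ (norm_nonneg _)
    refine (norm_sum_le _ _).trans ((Finset.sum_le_card_nsmul _ _ _
      fun i hi => hbound i i (Finset.ne_of_mem_erase hi)).trans ?_)
    rw [nsmul_eq_mul]
    refine mul_le_mul_of_nonneg_right ?_ (by positivity)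
    simp
  obtain ⟨W, hW⟩ := isUnit_one_sub_of_norm_lt_one hM
  refine ⟨(W⁻¹ : Dˣ) * cfc Y H * c.prod Finset.univ (facW E δ θ p), ?_⟩
  have hE1abs : E1 * tq = tq :=
    absorb c E z b col hθ _ p (fun i l hi => by rw [facP, if_pos hi, gen_fk E z b hE hs hδ])
      fun i hi => by rw [facP, if_neg hi]
  have hmain : cfc Y H * (Gm z z * tq) = (W : D) * tq := by
    have hz : Gm z z = H - ∑ i ∈ Finset.univ.erase z, Gm i i := by
      rw [hH, supp, ← Finset.add_sum_erase _ _ (Finset.mem_univ z), add_sub_cancel_right]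
    rw [hz, hW, sub_mul, sub_mul, mul_sub, ← mul_assoc (cfc Y H) H, eH, one_mul,
      mul_assoc (cfc Y H), ← Finset.sum_mul, mul_assoc _ E1, hE1abs]
  rw [mul_assoc, W_mul_sum c E z b col hE hδ hθ hθδ p, ← hGm, ← htq, mul_assoc, hmain,
    ← mul_assoc, Units.inv_mul, one_mul]

theorem comparisonN_of_copies {B : Type*} [CStarAlgebra B] {n : ℕ} {E : Fin n → Fin n → B}
    (hE : IsOrderZero E) (hs : ∀ i j, star (E i j) = E j i) {z : Fin n} {δ : ℝ} (hδ : 0 < δ)
    {N : ℕ} (a b : Fin (N + 1) → B) (h1 : ∑ l, a l * gen E z δ b l = 1)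
    {m : ℕ} (col : Fin m → Fin m → Fin (N + 1))
    (hcol : ∀ f : Fin m → Fin (N + 1), ∃ x y, x < y ∧ f x = col x y ∧ f y = col x y)
    {D : Type*} [CStarAlgebra D] [PartialOrder D] [StarOrderedRing D] (c : Copies B D (Fin m)) :
    ComparisonN n z D := by
  set Gm := fold (fam c E) m with hGm
  set H := supp Gm with hH
  have good := fam_good c E hE hs
  have hHsa : IsSelfAdjoint H := good.supp_fold_sa m
  obtain ⟨c₀, hc₀, hvan⟩ := vanish c E hE hs (m := m) (δ := δ / 2) (by linarith)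
  obtain ⟨C, hC, hsmall⟩ := good.small z m
  set K : ℝ := max (max 1 (‖cfc (fk δ) (supp E) * E z z‖)) (∑ j, ‖E j j‖) with hKdef
  have hK1 : 1 ≤ K := (le_max_left _ _).trans (le_max_left _ _)
  have hKk : ‖cfc (fk δ) (supp E) * E z z‖ ≤ K := (le_max_right _ _).trans (le_max_left _ _)
  have hK : ∀ j, ‖E j j‖ ≤ K := fun j =>
    (Finset.single_le_sum (fun q _ => norm_nonneg (E q q)) (Finset.mem_univ j)).trans
      (le_max_right _ _)
  set U : ℝ := ‖cfc (fun t => 1 / max t c₀) H‖ * (n * (C * (K ^ (m + 1)))) with hU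
  have hU0 : 0 ≤ U := by positivity
  obtain ⟨η, hη, hηU⟩ : ∃ η : ℝ, 0 < η ∧ U * η < 1 := by
    refine ⟨1 / (U + 1), by positivity, ?_⟩
    rw [mul_one_div, div_lt_one (by positivity)]
    linarith
  obtain ⟨θ, hθ, hθδ, hθη⟩ : ∃ θ : ℝ, 0 < θ ∧ 2 * θ ≤ δ / 2 ∧ 2 * θ ≤ η * η := by
    refine ⟨min (δ / 4) (η * η / 2), lt_min (by linarith) (by positivity), ?_, ?_⟩
    · linarith [min_le_left (δ / 4) (η * η / 2)]
    · linarith [min_le_right (δ / 4) (η * η / 2)]
  have hkill : ∀ p ψ, Continuous ψ → (∀ x, c₀ ≤ x → ψ x = 0) →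
      cfc ψ H * (tP c E z δ b col p * qQ c E θ) = 0 := fun p ψ hψ h0 => by
    have hx := hvan p.1.1 (fG δ) ψ (cont_fG δ)
      (fun x hx => (lt_of_ramp_ne_zero (by linarith) hx).le) hψ h0
    rw [← hom_fG_absorb c E z b col hδ p, ← mul_assoc, hx, zero_mul]
  have hηU' : ‖cfc (fun t => 1 / max t c₀) H‖ * (n * (C * (K ^ (m + 1) * η))) < 1 := by
    refine lt_of_eq_of_lt ?_ hηU
    rw [hU]; ring
  choose W hW using left_inverse c hE hs b col hδ hθ hθδ hK hKk hK1 hη.le hθη hC hc₀ hsmall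
    hkill hηU'
  obtain ⟨X, hX⟩ := (Submodule.mem_span_range_iff_exists_fun D).1
    (one_mem_span c E z b col hcol a h1)
  have hQr : (∑ p, X p * W p) * (Gm z z * tT c E z δ θ b col) = qQ c E θ := by
    rw [Finset.sum_mul]
    have e : ∀ q, X q * W q * (Gm z z * tT c E z δ θ b col)
        = X q * tP c E z δ b col q * qQ c E θ := fun q => by
      rw [mul_assoc, hW, mul_assoc]
    rw [Finset.sum_congr rfl fun q _ => e q, ← Finset.sum_mul]
    simp only [smul_eq_mul] at hX
    rw [hX, one_mul]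
  obtain ⟨c₁, hc₁, hvan1⟩ := vanish c E hE hs (m := m) (δ := θ / 2) (by linarith)
  have hτ : 0 < min c₀ c₁ := lt_min hc₀ hc₁
  have gtop : ∀ x, min c₀ c₁ ≤ x → ramp (min c₀ c₁ / 2) (min c₀ c₁) x = 1 := fun x hx =>
    ramp_of_ge (by linarith) hx
  refine finish (good.fold_oz m) (good.fold_sa m) z (qQ_sa c E θ) hQr hτ ?_ ?_
  · rw [tT, Finset.mul_sum]
    refine Finset.sum_congr rfl fun p _ => ?_
    have h0 := hkill p (fun x => 1 - ramp (min c₀ c₁ / 2) (min c₀ c₁) x)
      (continuous_const.sub (continuous_ramp _ _))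
      fun x hx => by rw [gtop x ((min_le_left _ _).trans hx), sub_self]
    rw [cfc_sub (fun _ : ℝ => (1 : ℝ)) _ H continuousOn_const
      (continuous_ramp _ _).continuousOn, cfc_const_one ℝ H, sub_mul, one_mul, sub_eq_zero] at h0
    exact h0.symm
  · set ψ0 : ℝ → ℝ := fun x => Real.sqrt (1 - ramp (min c₀ c₁ / 2) (min c₀ c₁) x) with hψ0
    have cψ : Continuous ψ0 :=
      Real.continuous_sqrt.comp (continuous_const.sub (continuous_ramp _ _))
    rw [qQ]
    refine prod_mul_absorb c _ fun i _ => ?_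
    set r : ℝ → ℝ := fun x => ramp (θ / 2) θ |x| with hr
    have cr : Continuous r := (continuous_ramp _ _).comp continuous_abs
    have hz := hvan1 i r ψ0 cr (fun x hx => (lt_of_ramp_ne_zero (by linarith) hx).le) cψ
      (fun x hx => by simp [hψ0, gtop x ((min_le_right _ _).trans hx)])
    have e1 : cfc (fq θ) (supp E) = 1 - cfc r (supp E) := by
      have : IsSelfAdjoint (supp E) := supp_sa E hs
      rw [show fq θ = fun x => 1 - r x from rfl,
        cfc_sub (fun _ : ℝ => (1 : ℝ)) r (supp E) continuousOn_const cr.continuousOn,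
        cfc_const_one ℝ (supp E)]
    have hc' : Commute (cfc ψ0 H) (c.hom i (cfc (fq θ) (supp E))) :=
      Commute.cfc_real (Commute.sum_left _ _ _
        fun j _ => (commute_hom_fold c E hE (fq θ) i j j).symm) ψ0
    rw [← hc'.eq, e1, map_sub, map_one, mul_sub, mul_one, hz, sub_zero]

/-- Stage 4 for any matrix size. -/
theorem stage4N {B : Type*} [CStarAlgebra B] {n : ℕ} {E : Fin n → Fin n → B} (hE : IsOrderZero E)
    (hs : ∀ i j, star (E i j) = E j i) {z : Fin n} (hfull : Full ({E z z} : Set B))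
    (hcolour : ColourStatement) :
    ∃ m : ℕ, ∀ (D : Type*) [CStarAlgebra D], Copies B D (Fin m) → ComparisonN n z D := by
  obtain ⟨δ, hδ, N, a, b, h1⟩ := exists_left_unit hE hs hfull
  obtain ⟨m, col, _, hcol⟩ := hcolour N
  refine ⟨m, fun D _ c => ?_⟩
  let := CStarAlgebra.spectralOrder D
  have := CStarAlgebra.spectralOrderedRing D
  exact comparisonN_of_copies hE hs hδ a b h1 col hcol c

end Vale.Agent.P101.Stage4
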