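import Vale.Agent.P101.Stage4.Prelim

/-! Stage 4: cut-off functions and the elements built from pairs of copies. -/

noncomputable section

open Finset

namespace Vale.Agent.P101.Stage4

open CombineN

/-- Cut away from zero, at level δ. -/
def fF (δ : ℝ) (t : ℝ) : ℝ := ramp δ (2 * δ) |t|

/-- One on the support of `fF δ`, zero near zero. -/
def fG (δ : ℝ) (t : ℝ) : ℝ := ramp (δ / 2) δ |t|

/-- `fG δ` divided by the variable. -/
def fk (δ : ℝ) (t : ℝ) : ℝ := fG δ t * t / max (t ^ 2) ((δ / 2) ^ 2)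

/-- Cut to near zero, narrow. -/
def fq (θ : ℝ) (t : ℝ) : ℝ := 1 - ramp (θ / 2) θ |t|

/-- Cut to near zero, wide. -/
def fp (θ : ℝ) (t : ℝ) : ℝ := 1 - ramp θ (2 * θ) |t|

theorem cont_fF (δ : ℝ) : Continuous (fF δ) := (continuous_ramp _ _).comp continuous_abs

theorem cont_fG (δ : ℝ) : Continuous (fG δ) := (continuous_ramp _ _).comp continuous_abs

theorem cont_fk {δ : ℝ} (hδ : 0 < δ) : Continuous (fk δ) :=
  ((cont_fG δ).mul continuous_id).div (by fun_prop) fun t =>
    (lt_of_lt_of_le (by positivity) (le_max_right _ _)).ne'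

theorem cont_fq (θ : ℝ) : Continuous (fq θ) :=
  continuous_const.sub ((continuous_ramp _ _).comp continuous_abs)

theorem cont_fp (θ : ℝ) : Continuous (fp θ) :=
  continuous_const.sub ((continuous_ramp _ _).comp continuous_abs)

theorem fG_fF {δ : ℝ} (hδ : 0 < δ) (t : ℝ) : fG δ t * fF δ t = fF δ t := by
  rcases eq_or_ne (fF δ t) 0 with h0 | h0
  · simp [h0]
  · rw [fG, ramp_of_ge (by linarith) (lt_of_ramp_ne_zero (by linarith) h0).le, one_mul]

theorem fk_fF {δ : ℝ} (hδ : 0 < δ) (t : ℝ) : fk δ t * (fF δ t * t) = fF δ t := by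
  rcases eq_or_ne (fF δ t) 0 with h0 | h0
  · simp [h0]
  · have ht : δ < |t| := lt_of_ramp_ne_zero (by linarith) h0
    have h2 : (δ / 2) ^ 2 ≤ t ^ 2 := by rw [← sq_abs t]; gcongr; linarith
    have ht0 : t ≠ 0 := fun e0 => by rw [e0, abs_zero] at ht; linarith
    rw [fk, fG, max_eq_left h2, ramp_of_ge (by linarith : δ / 2 < δ) ht.le]
    field_simp

theorem fG_fq {δ θ : ℝ} (_hδ : 0 < δ) (hθ : 0 < θ) (hθδ : 2 * θ ≤ δ / 2) (t : ℝ) :
    fG δ t * fq θ t = 0 := by
  rcases eq_or_ne (fG δ t) 0 with h0 | h0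
  · simp [h0]
  · have ht : δ / 2 < |t| := lt_of_ramp_ne_zero (by linarith) h0
    simp [fq, ramp_of_ge (by linarith : θ / 2 < θ) (by linarith : θ ≤ |t|)]

theorem fp_fq {θ : ℝ} (hθ : 0 < θ) (t : ℝ) : fp θ t * fq θ t = fq θ t := by
  rcases eq_or_ne (fq θ t) 0 with h0 | h0
  · simp [h0]
  · have ht : |t| < θ := lt_of_ramp_ne_one (a := θ / 2) (by linarith) fun e0 => h0 (by simp [fq, e0])
    simp [fp, ramp_of_le (by linarith : θ < 2 * θ) ht.le]

theorem fp_mem (θ t : ℝ) : 0 ≤ fp θ t ∧ fp θ t ≤ 1 := by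
  have := ramp_nonneg θ (2 * θ) |t|
  have := ramp_le_one θ (2 * θ) |t|
  constructor <;> simp only [fp] <;> linarith

variable {B D : Type*} [CStarAlgebra B] [CStarAlgebra D] {n m N : ℕ} (c : Copies B D (Fin m))
  (E : Fin n → Fin n → B) (z : Fin n) (δ θ : ℝ) (b : Fin (N + 1) → B)
  (col : Fin m → Fin m → Fin (N + 1))

/-- Pairs of positions. -/
abbrev Pairs (m : ℕ) := {p : Fin m × Fin m // p.1 < p.2}

/-- The pair p contains the position i. -/
abbrev InP (p : Pairs m) (i : Fin m) : Prop := i = p.1.1 ∨ i = p.1.2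

/-- One generator of the left unit. -/
def gen (l : Fin (N + 1)) : B := cfc (fF δ) (supp E) * E z z * b l

/-- The per-copy factors of a pair. -/
def facU (p : Pairs m) (i : Fin m) : B :=
  if InP p i then gen E z δ b (col p.1.1 p.1.2) else 1

/-- The separating cut-off of a pair. -/
def facW (p : Pairs m) (i : Fin m) : B :=
  if InP p i then cfc (fG δ) (supp E) else cfc (fp θ) (supp E)

/-- The localising cut-off of a pair. -/
def facP (p : Pairs m) (i : Fin m) : B :=
  if InP p i then cfc (fk δ) (supp E) * E z z else cfc (fp θ) (supp E)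

/-- The element of a pair. -/
def tP (p : Pairs m) : D := c.prod Finset.univ (facU E z δ b col p)

/-- The product of the small cut-offs. -/
def qQ : D := c.prod Finset.univ (fun _ => cfc (fq θ) (supp E))

/-- The sum over all pairs. -/
def tT : D := ∑ p : Pairs m, tP c E z δ b col p * qQ c E θ

theorem tP_qQ (p : Pairs m) : tP c E z δ b col p * qQ c E θ
    = c.prod Finset.univ (fun i => facU E z δ b col p i * cfc (fq θ) (supp E)) :=
  (c.prod_mul Finset.univ _ _).symm

theorem qQ_sa : star (qQ c E θ) = qQ c E θ := by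
  rw [qQ, star_prod]
  simp only [(cfc_predicate (fq θ) (supp E) : IsSelfAdjoint _).star_eq]

variable {δ θ}

theorem absorb (hθ : 0 < θ) (w : Fin m → B) (p : Pairs m)
    (h1 : ∀ i l, InP p i → w i * gen E z δ b l = gen E z δ b l)
    (h2 : ∀ i, ¬ InP p i → w i = cfc (fp θ) (supp E)) :
    c.prod Finset.univ w * (tP c E z δ b col p * qQ c E θ) = tP c E z δ b col p * qQ c E θ := by
  rw [tP_qQ, ← c.prod_mul]
  refine c.prod_congr fun i _ => ?_
  by_cases hi : InP p i
  · rw [facU, if_pos hi, ← mul_assoc, h1 i _ hi]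
  · rw [facU, if_neg hi, h2 i hi, one_mul,
      ← cfc_mul (fp θ) (fq θ) (supp E) (cont_fp θ).continuousOn (cont_fq θ).continuousOn,
      cfc_congr (fun t _ => fp_fq hθ t)]

theorem gen_fG (hδ : 0 < δ) (l : Fin (N + 1)) :
    cfc (fG δ) (supp E) * gen E z δ b l = gen E z δ b l := by
  simp only [gen, ← mul_assoc]
  rw [← cfc_mul (fG δ) (fF δ) (supp E) (cont_fG δ).continuousOn (cont_fF δ).continuousOn,
    cfc_congr (fun t _ => fG_fF hδ t)]

theorem gen_fk (hE : IsOrderZero E) (hs : ∀ i j, star (E i j) = E j i) (hδ : 0 < δ)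
    (l : Fin (N + 1)) :
    cfc (fk δ) (supp E) * E z z * gen E z δ b l = gen E z δ b l := by
  have hsa : IsSelfAdjoint (supp E) := supp_sa E hs
  have hce : Commute (cfc (fF δ) (supp E)) (E z z) := Commute.cfc_real (hE.commute_supp z z) _
  have h2 : cfc (fk δ) (supp E) * E z z * (cfc (fF δ) (supp E) * E z z)
      = cfc (fF δ) (supp E) * E z z := by
    rw [mul_assoc, ← mul_assoc (E z z), ← hce.eq, mul_assoc (cfc (fF δ) (supp E)) (E z z) (E z z),
      hE.mul_eq, if_pos rfl, ← mul_assoc (cfc (fF δ) (supp E)), ← mul_assoc]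
    congr 1
    have e1 : cfc (fF δ) (supp E) * supp E = cfc (fun t => fF δ t * t) (supp E) := by
      rw [cfc_mul (fF δ) (fun t => t) (supp E) (cont_fF δ).continuousOn continuousOn_id,
        cfc_id' ℝ (supp E)]
    rw [e1, ← cfc_mul (fk δ) (fun t => fF δ t * t) (supp E) (cont_fk hδ).continuousOn
      ((cont_fF δ).mul continuous_id).continuousOn, cfc_congr (fun t _ => fk_fF hδ t)]
  simp only [gen, ← mul_assoc]
  rw [mul_assoc (cfc (fk δ) (supp E) * E z z) (cfc (fF δ) (supp E)) (E z z), h2]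

theorem orth (hδ : 0 < δ) (hθ : 0 < θ) (hθδ : 2 * θ ≤ δ / 2) {p p' : Pairs m} (hne : p ≠ p') :
    c.prod Finset.univ (facW E δ θ p) * (tP c E z δ b col p' * qQ c E θ) = 0 := by
  obtain ⟨i, hi, hi'⟩ : ∃ i, InP p i ∧ ¬ InP p' i := by
    by_contra hcon
    push Not at hcon
    apply hne
    have a1 := hcon p.1.1 (Or.inl rfl)
    have a2 := hcon p.1.2 (Or.inr rfl)
    have := p.2
    have := p'.2
    refine Subtype.ext (Prod.ext ?_ ?_) <;> simp only [InP] at a1 a2 <;>
      rcases a1 with a1 | a1 <;> rcases a2 with a2 | a2 <;> omega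
  rw [tP_qQ, ← c.prod_mul]
  refine prod_zero c (Finset.mem_univ i) ?_
  rw [facW, facU, if_pos hi, if_neg hi', one_mul,
    ← cfc_mul (fG δ) (fq θ) (supp E) (cont_fG δ).continuousOn (cont_fq θ).continuousOn,
    cfc_congr (g := fun _ => (0 : ℝ)) (fun t _ => fG_fq hδ hθ hθδ t), cfc_const_zero]

theorem commute_W (hE : IsOrderZero E) (p : Pairs m) (i j : Fin n) :
    Commute (c.prod Finset.univ (facW E δ θ p)) (fold (fam c E) m i j) := by
  refine (commute_prod_of c _ fun a _ => ?_).symm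
  rw [facW]
  split <;> exact (commute_hom_fold c E hE _ a i j).symm

theorem W_mul_sum (hE : IsOrderZero E) (hδ : 0 < δ) (hθ : 0 < θ) (hθδ : 2 * θ ≤ δ / 2)
    (p : Pairs m) :
    c.prod Finset.univ (facW E δ θ p) * (fold (fam c E) m z z * tT c E z δ θ b col)
      = fold (fam c E) m z z * (tP c E z δ b col p * qQ c E θ) := by
  rw [← mul_assoc, (commute_W c E hE p z z).eq, mul_assoc, tT, Finset.mul_sum,
    Finset.sum_eq_single p (fun p' _ hne => orth c E z b col hδ hθ hθδ hne.symm)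
      (fun hp => absurd (Finset.mem_univ p) hp)]
  congr 1
  refine absorb c E z b col hθ _ p (fun i l hi => ?_) fun i hi => ?_
  · rw [facW, if_pos hi, gen_fG E z b hδ]
  · rw [facW, if_neg hi]

theorem hom_fG_absorb (hδ : 0 < δ) (p : Pairs m) :
    c.hom p.1.1 (cfc (fG δ) (supp E)) * (tP c E z δ b col p * qQ c E θ)
      = tP c E z δ b col p * qQ c E θ := by
  rw [tP_qQ, ← Finset.insert_erase (Finset.mem_univ p.1.1), c.prod_insert
    (Finset.notMem_erase _ _), ← mul_assoc, ← map_mul]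
  congr 2
  rw [facU, if_pos (show InP p p.1.1 from Or.inl rfl), ← mul_assoc, gen_fG E z b hδ]

theorem norm_P_factor (hE : IsOrderZero E) (hs : ∀ i j, star (E i j) = E j i) (hθ : 0 < θ)
    {K η : ℝ} (hK : ∀ j, ‖E j j‖ ≤ K) (hK1 : 1 ≤ K) (hη : 0 ≤ η) (hθη : 2 * θ ≤ η * η)
    (p : Pairs m) (a : Fin m) {i j : Fin n} (hj : j ≠ z) :
    ‖E i j * facP E z δ θ p a‖ ≤ K * η := by
  have hsa : IsSelfAdjoint (supp E) := supp_sa E hs
  rw [facP]
  split
  · rw [← mul_assoc, ← (Commute.cfc_real (hE.commute_supp i j) (fk δ)).eq, mul_assoc,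
      hE.mul_eq, if_neg hj, mul_zero, norm_zero]
    positivity
  · refine norm_self_le (by positivity) ?_
    set h := supp E
    have e1 : star (E i j * cfc (fp θ) h) * (E i j * cfc (fp θ) h)
        = cfc (fp θ) h * (h * cfc (fp θ) h) * E j j := by
      rw [star_mul, (cfc_predicate (fp θ) h : IsSelfAdjoint _).star_eq, hs, mul_assoc,
        ← mul_assoc (E j i), hE.mul_eq, if_pos rfl, mul_assoc h,
        ← (Commute.cfc_real (hE.commute_supp j j) (fp θ)).eq]
      simp only [mul_assoc]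
      rfl
    have e2 : cfc (fp θ) h * (h * cfc (fp θ) h) = cfc (fun t => fp θ t * (t * fp θ t)) h := by
      rw [cfc_mul (fp θ) (fun t => t * fp θ t) h (cont_fp θ).continuousOn
        (continuous_id.mul (cont_fp θ)).continuousOn,
        cfc_mul (fun t => t) (fp θ) h continuousOn_id (cont_fp θ).continuousOn, cfc_id' ℝ h]
    have hb : ‖cfc (fun t => fp θ t * (t * fp θ t)) h‖ ≤ 2 * θ := by
      refine norm_cfc_le (by linarith) fun x _ => ?_
      obtain ⟨h0', h1'⟩ := fp_mem θ x
      rw [Real.norm_eq_abs, abs_mul, abs_mul, abs_of_nonneg h0']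
      rcases eq_or_ne (fp θ x) 0 with h0 | h0
      · rw [h0, zero_mul]; linarith
      · have : |x| < 2 * θ := lt_of_ramp_ne_one (a := θ) (by linarith) fun e0 => h0 (by simp [fp, e0])
        calc fp θ x * (|x| * fp θ x) ≤ 1 * (2 * θ * 1) :=
              mul_le_mul h1' (mul_le_mul this.le h1' h0' (by linarith))
                (mul_nonneg (abs_nonneg x) h0') zero_le_one
          _ = 2 * θ := by ring
    rw [e1, e2]
    refine (norm_mul_le _ _).trans ?_
    calc _ ≤ (η * η) * (K * K) :=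
          mul_le_mul (hb.trans hθη) ((hK j).trans (by nlinarith)) (norm_nonneg _) (by positivity)
      _ = K * η * (K * η) := by ring

theorem norm_P (hE : IsOrderZero E) (hs : ∀ i j, star (E i j) = E j i) (hθ : 0 < θ)
    {K η : ℝ} (hK : ∀ j, ‖E j j‖ ≤ K) (hKk : ‖cfc (fk δ) (supp E) * E z z‖ ≤ K) (hK1 : 1 ≤ K)
    (hη : 0 ≤ η) (hθη : 2 * θ ≤ η * η) (p : Pairs m) (a : ℕ) (ha : a < m) {i j : Fin n}
    (hj : j ≠ z) :
    ‖fam c E a i j * c.prod Finset.univ (facP E z δ θ p)‖ ≤ K ^ (m + 1) * η := by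
  rw [show fam c E a i j = c.hom ⟨a, ha⟩ (E i j) by simp [fam, ha],
    ← Finset.insert_erase (Finset.mem_univ (⟨a, ha⟩ : Fin m)),
    c.prod_insert (Finset.notMem_erase _ _), ← mul_assoc, ← map_mul]
  refine (norm_mul_le _ _).trans ?_
  have h2 := norm_prod_le c (Finset.univ.erase (⟨a, ha⟩ : Fin m)) (g := facP E z δ θ p) (K := K)
    fun x _ => by
      rw [facP]
      split
      · exact hKk
      · refine le_trans (norm_cfc_le zero_le_one fun x _ => ?_) hK1
        rw [Real.norm_eq_abs, abs_of_nonneg (fp_mem θ x).1]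
        exact (fp_mem θ x).2
  refine le_trans (mul_le_mul ((NonUnitalStarAlgHom.norm_apply_le _ _).trans
    (norm_P_factor E z hE hs hθ hK hK1 hη hθη p ⟨a, ha⟩ hj)) h2 (norm_nonneg _) (by positivity)) ?_
  rw [show K * η * K ^ (Finset.univ.erase (⟨a, ha⟩ : Fin m)).card
    = K ^ ((Finset.univ.erase (⟨a, ha⟩ : Fin m)).card + 1) * η by ring]
  refine mul_le_mul_of_nonneg_right (pow_le_pow_right₀ hK1 ?_) hη
  simp

theorem one_mem_span (hcol : ∀ f : Fin m → Fin (N + 1), ∃ x y, x < y ∧ f x = col x y ∧ f y = col x y)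
    (a : Fin (N + 1) → B) (h1 : ∑ l, a l * gen E z δ b l = 1) :
    (1 : D) ∈ Submodule.span D (Set.range (tP c E z δ b col)) := by
  refine left_cover c a _ h1 _ fun f => ?_
  obtain ⟨x, y, hxy, hfx, hfy⟩ := hcol f
  set p : Pairs m := ⟨(x, y), hxy⟩ with hpdef
  have hp : tP c E z δ b col p = c.prod {x, y} (fun i => gen E z δ b (f i)) := by
    rw [tP, ← Finset.union_sdiff_of_subset (Finset.subset_univ ({x, y} : Finset (Fin m))),
      c.prod_union Finset.disjoint_sdiff]
    have e2 : c.prod (Finset.univ \ {x, y}) (facU E z δ b col p) = 1 := by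
      rw [c.prod_congr (g' := fun _ => 1) (fun i hi => ?_), prod_one]
      simp only [Finset.mem_sdiff, Finset.mem_insert, Finset.mem_singleton] at hi
      rw [facU, if_neg fun h2 => hi.2 h2]
    rw [e2, mul_one]
    refine c.prod_congr fun i hi => ?_
    simp only [Finset.mem_insert, Finset.mem_singleton] at hi
    rw [facU, if_pos (show InP p i from hi)]
    rcases hi with rfl | rfl
    · rw [hfx]
    · rw [hfy]
  have e3 : c.prod Finset.univ (fun i => gen E z δ b (f i))
      = c.prod (Finset.univ \ {x, y}) (fun i => gen E z δ b (f i)) • tP c E z δ b col p := by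
    rw [smul_eq_mul, hp, ← c.prod_union Finset.sdiff_disjoint,
      Finset.sdiff_union_of_subset (Finset.subset_univ _)]
  rw [e3]
  exact Submodule.smul_mem _ _ (Submodule.subset_span ⟨p, rfl⟩)

end Vale.Agent.P101.Stage4
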