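import Vale.Agent.P101.Cuts

/-! Stage 4, preliminaries: the families in D, lower bounds, and an exact left unit. -/

noncomputable section

open Finset

namespace Vale.Agent.P101.Stage4

open CombineN

section

variable {B D : Type*} [CStarAlgebra B] [CStarAlgebra D] {n m : ℕ} (c : Copies B D (Fin m))
  (E : Fin n → Fin n → B)

/-- The families in D. -/
def fam (a : ℕ) (i j : Fin n) : D := if h : a < m then c.hom ⟨a, h⟩ (E i j) else 0

theorem fam_apply (a : Fin m) (i j : Fin n) : fam c E a i j = c.hom a (E i j) := by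
  simp [fam, a.isLt]

theorem supp_fam (a : Fin m) : supp (fam c E a) = c.hom a (supp E) := by
  simp [supp, fam_apply]

theorem supp_sa (hs : ∀ i j, star (E i j) = E j i) : IsSelfAdjoint (supp E) := by
  simp [IsSelfAdjoint, supp, star_sum, hs]

theorem cfc_supp_fam (hs : ∀ i j, star (E i j) = E j i) (a : Fin m) (φ : ℝ → ℝ)
    (hφ : Continuous φ) : cfc φ (supp (fam c E a)) = c.hom a (cfc φ (supp E)) := by
  have hcont : Continuous (c.hom a) :=
    AddMonoidHomClass.continuous_of_bound (c.hom a) 1 fun x => by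
      simpa using NonUnitalStarAlgHom.norm_apply_le (c.hom a) x
  rw [supp_fam]
  exact (StarAlgHomClass.map_cfc (R := ℝ) (S := ℂ) (c.hom a) φ (supp E) hφ.continuousOn hcont
    (supp_sa E hs) ((supp_sa E hs).map (c.hom a))).symm

theorem fam_good (hE : IsOrderZero E) (hs : ∀ i j, star (E i j) = E j i) : Good (fam c E) where
  oz a := ⟨fun i j k l => by
    by_cases h : a < m
    · simp only [supp, fam, dif_pos h]
      rw [← map_mul, hE.mul_eq, ← map_sum]
      split
      · rw [map_mul, supp]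
      · rw [map_zero]
    · simp [fam, h]⟩
  sa a i j := by
    by_cases h : a < m
    · simp only [fam, dif_pos h]
      rw [← map_star, hs]
    · simp [fam, h]
  comm a b hab i j k l := by
    by_cases h : a < m
    · by_cases h' : b < m
      · simp only [fam, dif_pos h, dif_pos h']
        exact c.comm _ _ (fun e => hab (congrArg Fin.val e)) _ _
      · simp [fam, h']
    · simp [fam, h]

theorem commute_fold_hom {x : D} (h : ∀ (a : Fin m) (i j : Fin n), Commute x (c.hom a (E i j)))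
    (i j : Fin n) : Commute x (fold (fam c E) m i j) :=
  commute_fold (fun a ha i j => by rw [← Fin.val_mk ha, fam_apply]; exact h ⟨a, ha⟩ i j) i j

theorem commute_hom_fold (hE : IsOrderZero E) (f : ℝ → ℝ) (a : Fin m) (i j : Fin n) :
    Commute (c.hom a (cfc f (supp E))) (fold (fam c E) m i j) :=
  commute_fold_hom c E (fun b i' j' => by
    rcases eq_or_ne a b with rfl | hab
    · exact (Commute.cfc_real (hE.commute_supp i' j') f).map (c.hom a)
    · exact c.comm a b hab _ _) i j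

theorem vanish [PartialOrder D] [StarOrderedRing D] (hE : IsOrderZero E)
    (hs : ∀ i j, star (E i j) = E j i) {δ : ℝ} (hδ : 0 < δ) :
    ∃ c₀ : ℝ, 0 < c₀ ∧ ∀ (a : Fin m) (φ ψ : ℝ → ℝ), Continuous φ →
      (∀ t, φ t ≠ 0 → δ ≤ |t|) → Continuous ψ → (∀ t, c₀ ≤ t → ψ t = 0) →
      cfc ψ (supp (fold (fam c E) m)) * c.hom a (cfc φ (supp E)) = 0 := by
  choose d hd hlow using fun a : Fin m => (fam_good c E hE hs).lower m a a.isLt δ hδ
  obtain ⟨c₁, hc₁, hle⟩ : ∃ c₁ : ℝ, 0 < c₁ ∧ ∀ a, c₁ < d a := by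
    rcases Nat.eq_zero_or_pos m with hm | hm
    · subst hm; exact ⟨1, one_pos, fun a => a.elim0⟩
    · have : Nonempty (Fin m) := ⟨⟨0, hm⟩⟩
      obtain ⟨a₀, h₀⟩ := Finite.exists_min d
      exact ⟨d a₀ / 2, half_pos (hd a₀), fun a => by linarith [h₀ a, hd a₀]⟩
  refine ⟨c₁, hc₁, fun a φ ψ hφ hsupp hψ h0 => ?_⟩
  rw [← cfc_supp_fam c E hs a φ hφ]
  refine CombineN.eq_zero_of_low ((fam_good c E hE hs).supp_fold_sa m) (cfc_predicate φ _) ?_ (hle a)
    (hlow a φ hφ hsupp) hψ h0
  refine (Commute.sum_left _ _ _ fun i _ => ?_)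
  rw [cfc_supp_fam c E hs a φ hφ]
  exact (commute_hom_fold c E hE φ a i i).symm

end

theorem norm_self_le {B : Type*} [CStarAlgebra B] {x : B} {c : ℝ} (hc : 0 ≤ c)
    (h : ‖star x * x‖ ≤ c * c) : ‖x‖ ≤ c := by
  rw [CStarRing.norm_star_mul_self] at h
  nlinarith [norm_nonneg x]

theorem exists_left_unit {B : Type*} [CStarAlgebra B] {n : ℕ} {E : Fin n → Fin n → B}
    (hE : IsOrderZero E) (hs : ∀ i j, star (E i j) = E j i) {z : Fin n}
    (hfull : Full ({E z z} : Set B)) :
    ∃ δ : ℝ, 0 < δ ∧ ∃ (N : ℕ) (a b : Fin (N + 1) → B),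
      ∑ l, a l * (cfc (fun t => ramp δ (2 * δ) |t|) (supp E) * E z z * b l) = 1 := by
  obtain ⟨N, p, x, q, hx, h1⟩ := full_exists_sum hfull
  have hx' : ∀ l, x l = E z z := fun l => hx l
  set h := supp E
  set e := E z z
  set p' : Fin (N + 1) → B := Fin.cons 0 p
  set q' : Fin (N + 1) → B := Fin.cons 0 q
  have h1' : ∑ l, p' l * e * q' l = 1 := by
    rw [Fin.sum_univ_succ]
    simp only [p', q', Fin.cons_zero, Fin.cons_succ, mul_zero, zero_add]
    simpa only [hx'] using h1
  set M : ℝ := ∑ l, ‖p' l‖ * ‖q' l‖ with hM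
  have hM0 : 0 ≤ M := Finset.sum_nonneg fun l _ => by positivity
  obtain ⟨η, hη, hηM⟩ : ∃ η : ℝ, 0 < η ∧ M * η < 1 := by
    refine ⟨1 / (M + 1), by positivity, ?_⟩
    rw [mul_one_div, div_lt_one (by positivity)]
    linarith
  obtain ⟨δ, hδ, hδη⟩ : ∃ δ : ℝ, 0 < δ ∧ 2 * δ * ‖e‖ ≤ η * η := by
    refine ⟨η * η / (2 * (‖e‖ + 1)), by positivity, ?_⟩
    rw [show 2 * (η * η / (2 * (‖e‖ + 1))) * ‖e‖ = η * η * (‖e‖ / (‖e‖ + 1)) by field_simp]
    exact mul_le_of_le_one_right (mul_self_nonneg η) ((div_le_one (by positivity)).2 (by linarith))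
  set F : ℝ → ℝ := fun t => ramp δ (2 * δ) |t| with hF
  have hFc : Continuous F := (continuous_ramp _ _).comp continuous_abs
  have hsa : IsSelfAdjoint h := supp_sa E hs
  set ψ : ℝ → ℝ := fun t => 1 - F t with hψ
  have hψc : Continuous ψ := continuous_const.sub hFc
  have hcomm : Commute (cfc ψ h) e := Commute.cfc_real (hE.commute_supp z z) ψ
  have hee : e * e = h * e := by rw [hE.mul_eq, if_pos rfl]
  have herr : ‖e - cfc F h * e‖ ≤ η := by
    have e1 : e - cfc F h * e = cfc ψ h * e := by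
      rw [hψ, cfc_sub (fun _ : ℝ => (1 : ℝ)) F h, cfc_const_one ℝ h, sub_mul, one_mul]
    rw [e1]
    refine norm_self_le hη.le ?_
    have e2 : star (cfc ψ h * e) * (cfc ψ h * e) = cfc (fun t => ψ t * ψ t * t) h * e := by
      rw [star_mul, (cfc_predicate ψ h : IsSelfAdjoint _).star_eq,
        show star e = e from hs z z, cfc_mul (fun t => ψ t * ψ t) (fun t => t) h,
        cfc_mul ψ ψ h, cfc_id' ℝ h, mul_assoc (cfc ψ h * cfc ψ h) h e, ← hee]
      simp only [mul_assoc, hcomm.eq, hcomm.left_comm]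
    rw [e2]
    refine (norm_mul_le _ _).trans (le_trans ?_ hδη)
    refine mul_le_mul_of_nonneg_right (norm_cfc_le (by positivity) fun t _ => ?_) (norm_nonneg _)
    rw [Real.norm_eq_abs, abs_mul, abs_mul_self]
    by_cases ht : F t = 1
    · simp only [hψ, ht, sub_self, mul_zero, zero_mul]
      positivity
    · have h2 := lt_of_ramp_ne_one (by linarith) ht
      have hb : ψ t * ψ t ≤ 1 := by
        have := ramp_nonneg δ (2 * δ) |t|
        have := ramp_le_one δ (2 * δ) |t|
        simp only [hψ, hF]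
        nlinarith
      calc ψ t * ψ t * |t| ≤ 1 * (2 * δ) :=
            mul_le_mul hb h2.le (abs_nonneg _) zero_le_one
        _ = 2 * δ := one_mul _
  set u := ∑ l, p' l * (cfc F h * e * q' l) with hu
  have hsmall : ‖1 - u‖ < 1 := by
    have e3 : 1 - u = ∑ l, p' l * (e - cfc F h * e) * q' l := by
      rw [hu, ← h1', ← Finset.sum_sub_distrib]
      exact Finset.sum_congr rfl fun l _ => by noncomm_ring
    rw [e3]
    refine lt_of_le_of_lt ((norm_sum_le _ _).trans ?_) hηM
    rw [hM, Finset.sum_mul]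
    refine Finset.sum_le_sum fun l _ => (norm_mul₃_le ..).trans ?_
    rw [mul_right_comm]
    exact mul_le_mul_of_nonneg_left herr (by positivity)
  obtain ⟨w, hw⟩ := isUnit_one_sub_of_norm_lt_one hsmall
  rw [sub_sub_cancel] at hw
  refine ⟨δ, hδ, N, fun l => (w⁻¹ : Bˣ) * p' l, q', ?_⟩
  simp only [mul_assoc ((w⁻¹ : Bˣ) : B), ← Finset.mul_sum]
  rw [← hu, ← hw, Units.inv_mul]

end Vale.Agent.P101.Stage4
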